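import Vale.Agent.P040.H688.Ind

/-!
# P040, odd layer: the hexagon inequality from the exclusion of the two tripods (helper746)

* `mono_sel`: a continuous selection of finitely many nondecreasing functions is nondecreasing;
* `vt_mono_col`: `vt` is monotone in the values at the points of its colour alone;
* `vt_scale`: `vt` is homogeneous;
* `hex3`, `hex_sum`: let `E₀` be valid with values in `κ + d ℤ` at the coloured points, and let
  `Fp i`, `Fm i` be valid phases which agree at the coloured points with `E₀ ± d` on the label `i`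
  (and with `E₀` on the other labels). If not all three `Fp i` raise the value and not all three
  `Fm i` lower it, then the sum of the three differences is at most `2 d`.
-/

set_option linter.unusedSectionVars false

namespace Vale.Agent.P040.H746

open Vale.Agent.P040.H906 P040H251 Vale.Agent.P040.H688 Topology

theorem mono_sel {α : Type*} {A : Finset α} {φ : α → ℝ → ℝ} {g : ℝ → ℝ}
    (hφ : ∀ a ∈ A, MonotoneOn (φ a) (Set.Icc 0 1))
    (hφc : ∀ a ∈ A, ContinuousOn (φ a) (Set.Icc 0 1))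
    (hg : ContinuousOn g (Set.Icc 0 1))
    (hsel : ∀ t ∈ Set.Icc (0 : ℝ) 1, ∃ a ∈ A, g t = φ a t) : g 0 ≤ g 1 := by
  have key : Set.Icc (0 : ℝ) 1 ⊆ {t | g 0 ≤ g t} := by
    apply IsClosed.Icc_subset_of_forall_mem_nhdsWithin
    · have := hg.preimage_isClosed_of_isClosed isClosed_Icc (isClosed_Ici (a := g 0))
      rw [Set.inter_comm]
      exact this
    · show g 0 ≤ g 0
      exact le_rfl
    · rintro x ⟨hx0, hx⟩
      have hxI : x ∈ Set.Icc (0 : ℝ) 1 := ⟨hx.1, hx.2.le⟩
      have hnear : Set.Icc (0 : ℝ) 1 ∈ 𝓝[>] x := by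
        have h1 : Set.Ioc x 1 ∈ 𝓝[>] x := Ioc_mem_nhdsGT hx.2
        exact Filter.mem_of_superset h1 fun t ht => ⟨hx.1.trans ht.1.le, ht.2⟩
      have hle : 𝓝[>] x ≤ 𝓝[Set.Icc 0 1] x := by
        rw [nhdsWithin, nhdsWithin]
        refine le_inf inf_le_left ?_
        rw [Filter.le_principal_iff]
        exact hnear
      have h2 : ∀ a ∈ A, ∀ᶠ t in 𝓝[>] x, g t = φ a t → g 0 ≤ g t := by
        intro a ha
        rcases le_or_gt (g x) (φ a x) with h3 | h3
        · have h4 : ∀ᶠ t in 𝓝[>] x, t ∈ Set.Icc (0 : ℝ) 1 := hnear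
          have h5 : ∀ᶠ t in 𝓝[>] x, t ∈ Set.Ioi x := self_mem_nhdsWithin
          filter_upwards [h4, h5] with t ht ht' he
          rw [he]
          exact (hx0.trans h3).trans (hφ a ha hxI ht (le_of_lt ht'))
        · have h4 : ∀ᶠ t in 𝓝[Set.Icc 0 1] x, φ a t < g t :=
            ((hφc a ha) x hxI).eventually_lt (hg x hxI) h3
          filter_upwards [hle h4] with t ht he
          exact absurd he ht.ne'
      have h3 : ∀ᶠ t in 𝓝[>] x, ∀ a ∈ A, g t = φ a t → g 0 ≤ g t :=
        (Filter.eventually_all_finset A).2 h2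
      filter_upwards [h3, hnear] with t ht htI
      obtain ⟨a, ha, he⟩ := hsel t htI
      exact ht a ha he
  exact key ⟨zero_le_one, le_rfl⟩

variable {W : Type*} [LinearOrder W]

theorem vt_mono_col {col : W → Bool} {c : Cfg W} {E₀ E₁ : W → ℝ} {M₀ M₁ : ℝ} (hg : c.Good)
    (hcol : ColOK col c) (hv₀ : c.Valid E₀ M₀) (hv₁ : c.Valid E₁ M₁)
    (h : ∀ x ∈ c.S, col x = true → E₀ x ≤ E₁ x) : vt col c E₀ ≤ vt col c E₁ := by
  classical
  have := mono_sel (A := c.S.filter fun x => col x = true)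
    (φ := fun a t => sgm E₀ E₁ t a) (g := fun t => vt col c (sgm E₀ E₁ t))
    (fun a ha => by
      intro s hs t ht hst
      have h1 := h a (Finset.mem_filter.1 ha).1 (Finset.mem_filter.1 ha).2
      show sgm E₀ E₁ s a ≤ sgm E₀ E₁ t a
      unfold sgm
      nlinarith)
    (fun a ha => by
      apply Continuous.continuousOn
      unfold sgm
      fun_prop)
    (continuousOn_vt_sgm hg hcol hv₀ hv₁)
    (fun t ht => by
      obtain ⟨a, ha, hca, hva⟩ := vt_val hg hcol (valid_sgm ht.1 ht.2 hv₀ hv₁)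
      exact ⟨a, Finset.mem_filter.2 ⟨ha, hca⟩, hva⟩)
  simpa only [sgm_zero, sgm_one] using this

/-! ### homogeneity -/

theorem dl_scale {c : Cfg W} {E : W → ℝ} (r : ℝ) (b : Bool) (x : W) :
    c.dl (fun y => r * E y) b x = r * c.dl E b x := by
  unfold Cfg.dl
  ring

theorem valid_scale {c : Cfg W} {E : W → ℝ} {M r : ℝ} (hr : 0 ≤ r) (h : c.Valid E M) :
    c.Valid (fun y => r * E y) (r * M) := by
  intro b T hT hPD
  have k := mul_le_mul_of_nonneg_left (h b T hT hPD) hr
  have e : ∑ x ∈ T, (r * M + c.dl (fun y => r * E y) b x) = r * ∑ x ∈ T, (M + c.dl E b x) := by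
    rw [Finset.mul_sum]
    refine Finset.sum_congr rfl fun x _ => ?_
    rw [dl_scale]
    ring
  rw [e]
  linarith

theorem out_scale {col : W → Bool} {c : Cfg W} {E : W → ℝ} {a : W} {r : ℝ} (hr : 0 ≤ r)
    (h : Out E col c a) : Out (fun y => r * E y) col c a := by
  induction h with
  | base h1 h2 h3 => exact Out.base h1 h2 h3
  | @step c b x a h1 h2 h3 _ ih =>
    refine Out.step h1 h2 ?_ ih
    have := valid_scale hr h3
    rw [dl_scale]
    have e : r * -(c.dl E b x) = -(r * c.dl E b x) := by ring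
    rwa [e] at this

theorem vt_scale {col : W → Bool} {c : Cfg W} {E : W → ℝ} {M : ℝ} {r : ℝ} (hr : 0 ≤ r)
    (hg : c.Good) (hcol : ColOK col c) (hv : c.Valid E M) :
    vt col c (fun y => r * E y) = r * vt col c E := by
  obtain ⟨a, ha⟩ := exists_out' hg hcol hv
  rw [vt_eq hg hcol ha, vt_eq hg hcol (out_scale hr ha)]

/-! ### the hexagon -/

/-- pure arithmetic of the hexagon: `p i` (`m i`) = the phase `+i` raises (`-i` lowers) -/
theorem hex_arith {v d p₁ p₂ p₃ m₁ m₂ m₃ : ℝ} (hd : 0 < d)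
    (hp₁ : p₁ = v ∨ p₁ = v + d) (hp₂ : p₂ = v ∨ p₂ = v + d) (hp₃ : p₃ = v ∨ p₃ = v + d)
    (hm₁ : m₁ = v ∨ m₁ = v - d) (hm₂ : m₂ = v ∨ m₂ = v - d) (hm₃ : m₃ = v ∨ m₃ = v - d)
    (h12 : p₁ ≤ m₂ + d) (h13 : p₁ ≤ m₃ + d) (h21 : p₂ ≤ m₁ + d) (h23 : p₂ ≤ m₃ + d)
    (h31 : p₃ ≤ m₁ + d) (h32 : p₃ ≤ m₂ + d)
    (hor : ¬ (p₁ = v + d ∧ p₂ = v + d ∧ p₃ = v + d))
    (hand : ¬ (m₁ = v - d ∧ m₂ = v - d ∧ m₃ = v - d)) :
    |p₁ - m₁| + |p₂ - m₂| + |p₃ - m₃| ≤ 2 * d := by
  have habs : ∀ p m : ℝ, (p = v ∨ p = v + d) → (m = v ∨ m = v - d) → |p - m| = p - m := by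
    intro p m hp hm
    apply abs_of_nonneg
    rcases hp with rfl | rfl <;> rcases hm with rfl | rfl <;> linarith
  rw [habs _ _ hp₁ hm₁, habs _ _ hp₂ hm₂, habs _ _ hp₃ hm₃]
  rcases hp₁ with e1 | e1 <;> rcases hp₂ with e2 | e2 <;> rcases hp₃ with e3 | e3 <;>
    rcases hm₁ with f1 | f1 <;> rcases hm₂ with f2 | f2 <;> rcases hm₃ with f3 | f3 <;>
    first
    | (exfalso; exact hor ⟨e1, e2, e3⟩)
    | (exfalso; exact hand ⟨f1, f2, f3⟩)
    | linarith

section hex

variable {ι : Type*} [DecidableEq ι] {col : W → Bool} {c : Cfg W} {E₀ : W → ℝ} {M₀ d κ : ℝ}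
  {lab : W → ι} {Fp Fm : ι → W → ℝ}

/-- the values of `vt` are in the lattice of the coloured values -/
theorem vt_lattice (hg : c.Good) (hcol : ColOK col c) {F : W → ℝ} {M : ℝ} (hv : c.Valid F M)
    (hF : ∀ x ∈ c.S, col x = true → ∃ n : ℤ, F x = κ + d * n) :
    ∃ n : ℤ, vt col c F = κ + d * n := by
  obtain ⟨a, ha, hca, hva⟩ := vt_val hg hcol hv
  obtain ⟨n, hn⟩ := hF a ha hca
  exact ⟨n, by rw [hva, hn]⟩

theorem plus_step (hg : c.Good) (hcol : ColOK col c) (hv₀ : c.Valid E₀ M₀) (hd : 0 < d)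
    (hlat : ∀ x ∈ c.S, col x = true → ∃ n : ℤ, E₀ x = κ + d * n) {i : ι}
    (hvp : ∃ M, c.Valid (Fp i) M)
    (hp : ∀ x ∈ c.S, col x = true → Fp i x = E₀ x + if lab x = i then d else 0) :
    vt col c (Fp i) = vt col c E₀ ∨ vt col c (Fp i) = vt col c E₀ + d := by
  obtain ⟨M, hv⟩ := hvp
  have h1 : vt col c E₀ ≤ vt col c (Fp i) := vt_mono_col hg hcol hv₀ hv fun x hx hc => by
    rw [hp x hx hc]; split_ifs <;> linarith
  have h2 : vt col c (Fp i) ≤ vt col c (fun x => E₀ x + d) :=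
    vt_mono_col hg hcol hv (valid_add d hv₀) fun x hx hc => by
      rw [hp x hx hc]; split_ifs <;> linarith
  rw [vt_add d hg hcol hv₀] at h2
  obtain ⟨n, hn⟩ := vt_lattice hg hcol hv₀ hlat
  obtain ⟨n', hn'⟩ := vt_lattice (κ := κ) (d := d) hg hcol hv (fun x hx hc => by
    obtain ⟨k, hk⟩ := hlat x hx hc
    rw [hp x hx hc, hk]
    split_ifs
    · exact ⟨k + 1, by push_cast; ring⟩
    · exact ⟨k, by ring⟩)
  rw [hn, hn'] at h1 h2
  have h3 : (n : ℝ) ≤ n' := by
    by_contra hc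
    push Not at hc
    nlinarith
  have h4 : (n' : ℝ) ≤ n + 1 := by
    by_contra hc
    push Not at hc
    nlinarith
  have h3' : n ≤ n' := by exact_mod_cast h3
  have h4' : n' ≤ n + 1 := by exact_mod_cast h4
  rcases (by omega : n' = n ∨ n' = n + 1) with e | e
  · left; rw [hn, hn', e]
  · right; rw [hn, hn', e]; push_cast; ring

theorem minus_step (hg : c.Good) (hcol : ColOK col c) (hv₀ : c.Valid E₀ M₀) (hd : 0 < d)
    (hlat : ∀ x ∈ c.S, col x = true → ∃ n : ℤ, E₀ x = κ + d * n) {i : ι}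
    (hvm : ∃ M, c.Valid (Fm i) M)
    (hm : ∀ x ∈ c.S, col x = true → Fm i x = E₀ x - if lab x = i then d else 0) :
    vt col c (Fm i) = vt col c E₀ ∨ vt col c (Fm i) = vt col c E₀ - d := by
  obtain ⟨M, hv⟩ := hvm
  have h1 : vt col c (Fm i) ≤ vt col c E₀ := vt_mono_col hg hcol hv hv₀ fun x hx hc => by
    rw [hm x hx hc]; split_ifs <;> linarith
  have h2 : vt col c (fun x => E₀ x + -d) ≤ vt col c (Fm i) :=
    vt_mono_col hg hcol (valid_add (-d) hv₀) hv fun x hx hc => by
      rw [hm x hx hc]; split_ifs <;> linarith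
  rw [vt_add (-d) hg hcol hv₀] at h2
  obtain ⟨n, hn⟩ := vt_lattice hg hcol hv₀ hlat
  obtain ⟨n', hn'⟩ := vt_lattice (κ := κ) (d := d) hg hcol hv (fun x hx hc => by
    obtain ⟨k, hk⟩ := hlat x hx hc
    rw [hm x hx hc, hk]
    split_ifs
    · exact ⟨k - 1, by push_cast; ring⟩
    · exact ⟨k, by ring⟩)
  rw [hn, hn'] at h1 h2
  have h3 : (n' : ℝ) ≤ n := by
    by_contra hc
    push Not at hc
    nlinarith
  have h4 : (n : ℝ) ≤ n' + 1 := by
    by_contra hc
    push Not at hc
    nlinarith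
  have h3' : n' ≤ n := by exact_mod_cast h3
  have h4' : n ≤ n' + 1 := by exact_mod_cast h4
  rcases (by omega : n' = n ∨ n' = n - 1) with e | e
  · left; rw [hn, hn', e]
  · right; rw [hn, hn', e]; push_cast; ring

theorem cross_step (hg : c.Good) (hcol : ColOK col c) (hd : 0 < d) {i j : ι}
    (hij : i ≠ j)
    (hvp : ∃ M, c.Valid (Fp i) M) (hvm : ∃ M, c.Valid (Fm j) M)
    (hp : ∀ x ∈ c.S, col x = true → Fp i x = E₀ x + if lab x = i then d else 0)
    (hm : ∀ x ∈ c.S, col x = true → Fm j x = E₀ x - if lab x = j then d else 0) :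
    vt col c (Fp i) ≤ vt col c (Fm j) + d := by
  obtain ⟨M, hv⟩ := hvp
  obtain ⟨M', hv'⟩ := hvm
  rw [← vt_add d hg hcol hv']
  refine vt_mono_col hg hcol hv (valid_add d hv') fun x hx hc => ?_
  rw [hp x hx hc, hm x hx hc]
  split_ifs with h1 h2 h2
  · exact absurd (h1.symm.trans h2) hij
  all_goals linarith

/-- **The hexagon inequality** for three labels `i`, `j`, `k`. -/
theorem hex3 (hg : c.Good) (hcol : ColOK col c) (hv₀ : c.Valid E₀ M₀) (hd : 0 < d)
    (hlat : ∀ x ∈ c.S, col x = true → ∃ n : ℤ, E₀ x = κ + d * n)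
    {i j k : ι} (hij : i ≠ j) (hik : i ≠ k) (hjk : j ≠ k)
    (hvp : ∀ l, ∃ M, c.Valid (Fp l) M) (hvm : ∀ l, ∃ M, c.Valid (Fm l) M)
    (hp : ∀ l, ∀ x ∈ c.S, col x = true → Fp l x = E₀ x + if lab x = l then d else 0)
    (hm : ∀ l, ∀ x ∈ c.S, col x = true → Fm l x = E₀ x - if lab x = l then d else 0)
    (hor : ¬ (vt col c (Fp i) = vt col c E₀ + d ∧ vt col c (Fp j) = vt col c E₀ + d ∧
      vt col c (Fp k) = vt col c E₀ + d))
    (hand : ¬ (vt col c (Fm i) = vt col c E₀ - d ∧ vt col c (Fm j) = vt col c E₀ - d ∧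
      vt col c (Fm k) = vt col c E₀ - d)) :
    |vt col c (Fp i) - vt col c (Fm i)| + |vt col c (Fp j) - vt col c (Fm j)| +
      |vt col c (Fp k) - vt col c (Fm k)| ≤ 2 * d :=
  hex_arith hd
    (plus_step hg hcol hv₀ hd hlat (hvp i) (hp i)) (plus_step hg hcol hv₀ hd hlat (hvp j) (hp j))
    (plus_step hg hcol hv₀ hd hlat (hvp k) (hp k))
    (minus_step hg hcol hv₀ hd hlat (hvm i) (hm i)) (minus_step hg hcol hv₀ hd hlat (hvm j) (hm j))
    (minus_step hg hcol hv₀ hd hlat (hvm k) (hm k))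
    (cross_step hg hcol hd hij (hvp i) (hvm j) (hp i) (hm j))
    (cross_step hg hcol hd hik (hvp i) (hvm k) (hp i) (hm k))
    (cross_step hg hcol hd hij.symm (hvp j) (hvm i) (hp j) (hm i))
    (cross_step hg hcol hd hjk (hvp j) (hvm k) (hp j) (hm k))
    (cross_step hg hcol hd hik.symm (hvp k) (hvm i) (hp k) (hm i))
    (cross_step hg hcol hd hjk.symm (hvp k) (hvm j) (hp k) (hm j))
    hor hand

end hex

/-- the coloured values form one class modulo `d` if all the chord masses are in `d ℤ` -/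
theorem lattice_of_law {col : W → Bool} {c : Cfg W} {E : W → ℝ} {M d : ℝ} (hg : c.Good)
    (hcol : ColOK col c) (hM : ∃ n : ℤ, 2 * M = d * n)
    (law : ∀ b, ∀ x ∈ c.S, ∃ n : ℤ, M + c.dl E b x = d * n) :
    ∃ κ : ℝ, ∀ x ∈ c.S, col x = true → ∃ n : ℤ, E x = κ + d * n := by
  classical
  obtain ⟨m, hm⟩ := hM
  obtain ⟨x0, hx0⟩ := hg.nonem
  have key : ∀ κ : ℝ, (if col x0 = true then (∃ n : ℤ, E x0 = κ + d * n)
      else ∃ n : ℤ, E x0 = κ + M + d * n) →
      ∀ x ∈ c.S, col x = true → ∃ n : ℤ, E x = κ + d * n := by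
    intro κ hκ
    have hA := hg.conn (c.S.filter fun x => if col x = true then (∃ n : ℤ, E x = κ + d * n)
      else ∃ n : ℤ, E x = κ + M + d * n) (Finset.filter_subset _ _)
      ⟨x0, Finset.mem_filter.2 ⟨hx0, hκ⟩⟩ (fun b x hx => by
        rw [Finset.mem_filter] at hx ⊢
        refine ⟨hg.mem b x hx.1, ?_⟩
        have hc := hcol b x hx.1
        obtain ⟨n, hn⟩ := law b x hx.1
        unfold Cfg.dl at hn
        have h2 := hx.2
        cases hcx : col x with
        | true =>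
          rw [hcx] at h2 hc
          simp only [if_true] at h2
          obtain ⟨k, hk⟩ := h2
          have hc' : col (c.f b x) = false := by rw [hc]; rfl
          rw [hc']
          simp only [Bool.false_eq_true, if_false]
          cases b with
          | true =>
            simp only [sg, if_true, Bool.false_eq_true, if_false] at hn
            refine ⟨k + n - m, ?_⟩
            push_cast
            linarith
          | false =>
            simp only [sg, if_true, Bool.false_eq_true, if_false] at hn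
            refine ⟨k - n, ?_⟩
            push_cast
            linarith
        | false =>
          rw [hcx] at h2 hc
          simp only [Bool.false_eq_true, if_false] at h2
          obtain ⟨k, hk⟩ := h2
          have hc' : col (c.f b x) = true := by rw [hc]; rfl
          rw [hc']
          simp only [if_true]
          cases b with
          | true =>
            simp only [sg, if_true, Bool.false_eq_true, if_false] at hn
            refine ⟨k + n, ?_⟩
            push_cast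
            linarith
          | false =>
            simp only [sg, if_true, Bool.false_eq_true, if_false] at hn
            refine ⟨k - n + m, ?_⟩
            push_cast
            linarith)
    intro x hx hcx
    have : x ∈ c.S.filter fun x => if col x = true then (∃ n : ℤ, E x = κ + d * n)
      else ∃ n : ℤ, E x = κ + M + d * n := by rw [hA]; exact hx
    have h2 := (Finset.mem_filter.1 this).2
    rw [hcx] at h2
    simpa using h2
  cases hc0 : col x0 with
  | true => exact ⟨E x0, key _ (by rw [hc0]; simp only [if_true]; exact ⟨0, by simp⟩)⟩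
  | false =>
    exact ⟨E x0 - M, key _ (by
      rw [hc0]; simp only [Bool.false_eq_true, if_false]; exact ⟨0, by simp⟩)⟩

/-- **The hexagon inequality**, labels in `ZMod 3`. -/
theorem hex_sum {col : W → Bool} {c : Cfg W} {E₀ : W → ℝ} {M₀ d κ : ℝ} {lab : W → ZMod 3}
    {Fp Fm : ZMod 3 → W → ℝ} (hg : c.Good) (hcol : ColOK col c) (hv₀ : c.Valid E₀ M₀) (hd : 0 < d)
    (hlat : ∀ x ∈ c.S, col x = true → ∃ n : ℤ, E₀ x = κ + d * n)
    (hvp : ∀ l, ∃ M, c.Valid (Fp l) M) (hvm : ∀ l, ∃ M, c.Valid (Fm l) M)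
    (hp : ∀ l, ∀ x ∈ c.S, col x = true → Fp l x = E₀ x + if lab x = l then d else 0)
    (hm : ∀ l, ∀ x ∈ c.S, col x = true → Fm l x = E₀ x - if lab x = l then d else 0)
    (hor : ¬ ∀ l, vt col c (Fp l) = vt col c E₀ + d)
    (hand : ¬ ∀ l, vt col c (Fm l) = vt col c E₀ - d) :
    |vt col c (Fp 0) - vt col c (Fm 0)| + |vt col c (Fp 1) - vt col c (Fm 1)| +
      |vt col c (Fp 2) - vt col c (Fm 2)| ≤ 2 * d := by
  have hall : ∀ {Q : ZMod 3 → Prop}, (Q 0 ∧ Q 1 ∧ Q 2) → ∀ l, Q l := by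
    intro Q hQ l
    fin_cases l
    · exact hQ.1
    · exact hQ.2.1
    · exact hQ.2.2
  refine hex3 hg hcol hv₀ hd hlat (by decide) (by decide) (by decide) hvp hvm hp hm ?_ ?_
  · exact fun hh => hor (hall hh)
  · exact fun hh => hand (hall hh)

end Vale.Agent.P040.H746
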